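import Vale.Agent.P181.GK.Defs
import Vale.Agent.P181.TL.H307.LowB

set_option autoImplicit false

/-!
# P181, GK, LOW: the lower bound with `a` pieces in `Sym^B Sym^A`
-/

open MvPolynomial

namespace Vale.Agent.P181.GK.H43

open Vale.Agent.P181.T4 (HW)
open Vale.Agent.P181.H280 (plethMult)
open Vale.Agent.P181.SZ
open Vale.Agent.P181.TL
open Vale.Agent.P181.TL.H307 (sum_bal mem_PT)
open Vale.Agent.P181.GK

theorem low_core (hRef : RefB) (hLift : LiftB) (hKey : KeyB) (hSize : SizeG) (hLow : LowerS)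
    (hTr : TransS) : LowG := by
  intro a A B k q m X w tau f ha hA hq hm hX h1 hf h2 h3 h4
  classical
  obtain ⟨KS, k1, k2, k3, k4⟩ := hKey a q m X (∑ i : Fin k, tau i) ha hq hm hX h1
  obtain ⟨H, s, p, l, s1, s2, s3, s4, s5, s6, s7⟩ := hSize a A B q m w
    (2 * ((∑ i : Fin k, tau i) / a / q) + q) ha (by omega) hm (by omega) h2 h3 hA h4
  have hApos : 0 < A := by omega
  have htw : ∑ i : Fin k, tau i ≤ w := by
    refine le_trans ?_ h3
    set t := ∑ i : Fin k, tau i with ht
    have e1 : t / a / q = t / (a * q) := Nat.div_div_eq_div_mul t a q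
    have e2 : t < a * q * (t / (a * q) + 1) := Nat.lt_mul_div_succ t (Nat.mul_pos ha (by omega))
    rw [← e1] at e2
    have e3 : a * q * (t / a / q + 1) ≤ q * a * (2 * (t / a / q) + q + q * (a / m) + q) := by
      rw [Nat.mul_comm a q]
      exact Nat.mul_le_mul_left _ (by omega)
    omega
  have hwB : w ≤ A * B := by
    have e1 : w < A * (w / A + 1) := Nat.lt_mul_div_succ w hApos
    have e2 : A * (w / A + 1) ≤ A * B := Nat.mul_le_mul_left _ (by omega)
    omega
  set lam : Fin (k + 2) → ℕ :=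
    Fin.cons (A * B - w) (Fin.cons (w - ∑ i : Fin k, tau i) tau) with hlam
  have htl : tl lam = Fin.cons (w - ∑ i : Fin k, tau i) tau := by
    funext i
    rfl
  have hstl : ∑ i, tl lam i = w := by
    rw [htl, Fin.sum_cons]
    omega
  have hsum : ∑ i, lam i = A * B := by
    rw [hlam, Fin.sum_cons, Fin.sum_cons]
    omega
  have j0 : Fin a × Fin q := (⟨0, ha⟩, ⟨0, by omega⟩)
  have hLif := hLift k (w - ∑ i : Fin k, tau i) (Fin a × Fin q) (Fin H) s p l tau KS s2
    (fun c hc j => (k2 c hc j).trans (s1 j).le)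
    (fun c hc => by
      rw [Fintype.sum_prod_type]
      calc ∑ i : Fin a, ∑ r : Fin q, c (i, r)
          = ∑ i : Fin a, ((∑ i : Fin k, tau i) / a +
            if (i : ℕ) < (∑ i : Fin k, tau i) % a then 1 else 0) :=
            Finset.sum_congr rfl fun i _ => k1 c hc i
        _ = _ := sum_bal a _ ha)
    (fun c hc h => by
      refine le_trans ?_ (s7 h)
      calc _ ≤ ∑ j ∈ Finset.univ.filter (fun j => l j = h),
              (2 * ((∑ i : Fin k, tau i) / a / q) + q) := by
            refine le_trans (le_of_eq ?_) (Finset.sum_le_sum fun j _ => k2 c hc j)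
            refine Finset.sum_congr ?_ fun _ _ => rfl
            ext j; simp
        _ = _ := by rw [Finset.sum_const, smul_eq_mul])
    (fun c hc c' hc' j j' hs hne => by
      obtain ⟨e1, e2⟩ := s6 j j' hs
      exact k3 c hc c' hc' j j' e1 e2 hne)
    (by rw [s5]; omega)
  have hstep : X ^ ((q - 1) * a) * Module.finrank ℂ (KK k (Fin a) f tau) ≤
      Module.finrank ℂ (PK (k + 1) ((Fin a × Fin q) ⊕ Fin H) (Sum.elim s p)
        (Fin.cons (w - ∑ i : Fin k, tau i) tau)) := by
    refine le_trans (Nat.mul_le_mul_right _ k4) (le_trans ?_ hLif)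
    rw [← smul_eq_mul, ← Finset.sum_const]
    refine Finset.sum_le_sum fun c hc => hRef k (Fin a) (Fin q) f c _ fun i => ?_
    rw [k1 c hc i, hf i]
  refine le_trans hstep ?_
  rw [hTr, ← htl]
  have hpos : ∀ x : (Fin a × Fin q) ⊕ Fin H, 2 ≤ Sum.elim s p x ∧ Sum.elim s p x ≤ A := by
    have hs : ∀ j, 2 ≤ s j ∧ s j ≤ A := fun j =>
      ⟨by have := s1 j; omega, by have := s2 j (l j); have := s3 (l j); omega⟩
    rintro (j | h)
    · exact hs j
    · exact ⟨by have := s2 j0 h; have := (hs j0).1; simp only [Sum.elim_inr]; omega, s3 h⟩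
  have hfil : ((Finset.univ.val.map (Sum.elim s p)).filter (0 < ·)) =
      Finset.univ.val.map (Sum.elim s p) := by
    refine Multiset.filter_eq_self.2 fun x hx => ?_
    obtain ⟨y, _, rfl⟩ := Multiset.mem_map.1 hx
    exact lt_of_lt_of_le (by norm_num) (hpos y).1
  rw [hfil]
  refine le_trans ?_ (hLow A B (k + 1) lam hsum)
  refine Finset.single_le_sum (f := fun κ => nn (k + 1) (tl lam) κ) (fun _ _ => Nat.zero_le _)
    (Finset.mem_filter.2 ⟨mem_PT ?_ ?_, ?_, ?_⟩)
  · rw [hstl, ← s5]
    change ∑ x, Sum.elim s p x = _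
    rw [Fintype.sum_sum_type]
    rfl
  · intro x hx
    obtain ⟨y, _, rfl⟩ := Multiset.mem_map.1 hx
    exact (hpos y).1
  · intro x hx
    obtain ⟨y, _, rfl⟩ := Multiset.mem_map.1 hx
    exact (hpos y).2
  · rw [Multiset.card_map]
    change 3 * Finset.card Finset.univ ≤ B
    rw [Finset.card_univ, Fintype.card_sum, Fintype.card_prod, Fintype.card_fin, Fintype.card_fin,
      Fintype.card_fin]
    exact s4

end Vale.Agent.P181.GK.H43
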