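import Vale.Agent.P181.GK.H43.Low
import Vale.Agent.P181.TL.H353.Ref
import Vale.Agent.P181.TL.H248.T4
import Vale.Agent.P181.TL.H908.KeyB
import Vale.Agent.P181.SZR2.Lower
import Vale.Agent.P181.SZT0.Tr

set_option autoImplicit false

/-!
# P181, GK, LOW: the blocks plugged
-/

namespace Vale.Agent.P181.GK.H43

open Vale.Agent.P181.TL
open Vale.Agent.P181.GK

/-- **(LOW)** from the sizes. -/
theorem low_of (h : SizeG) : LowG :=
  low_core H353.refB H248.liftB H908.keyB h Vale.Agent.P181.SZR2.lowerS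
    Vale.Agent.P181.SZT0.transS

end Vale.Agent.P181.GK.H43
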